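import Mathlib

/-!
Definitions for the David-Semmes project (P120). See skeleton/P120/PROOF.md.
-/

open MeasureTheory Metric Set Filter Topology
open scoped RealInnerProductSpace ENNReal NNReal

noncomputable section

namespace Vale.Agent.P120

variable {X : Type} [NormedAddCommGroup X] [InnerProductSpace ℝ X] [FiniteDimensional ℝ X]
  [MeasurableSpace X] [BorelSpace X]
variable {F : Type} [NormedAddCommGroup F] [InnerProductSpace ℝ F] [FiniteDimensional ℝ F]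

/-- The scalar kernel `|z|^(-n-1)` (value `0` at `z = 0`). -/
def J (n : ℕ) (z : X) : ℝ := (‖z‖ ^ (n + 1))⁻¹

/-- Cut-off: `1` for `t ≤ R`, `0` for `t ≥ 2R`, `1/R`-Lipschitz. -/
def cut (R t : ℝ) : ℝ := max 0 (min 1 (2 - t / R))

/-- The nonlocal bilinear form with radial weight `w`. -/
def En (n : ℕ) (μ : Measure X) (w : ℝ → ℝ) (u ψ : X → F) : ℝ :=
  ∫ p : X × X, w ‖p.1 - p.2‖ * (J n (p.1 - p.2) * ⟪u p.1 - u p.2, ψ p.1 - ψ p.2⟫) ∂(μ.prod μ)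

/-- Total energy. -/
def EE (n : ℕ) (μ : Measure X) (ψ : X → F) : ℝ :=
  ∫ p : X × X, J n (p.1 - p.2) * ‖ψ p.1 - ψ p.2‖ ^ 2 ∂(μ.prod μ)

/-- Local energy on a ball. -/
def LE (n : ℕ) (μ : Measure X) (u : X → F) (x : X) (ρ : ℝ) : ℝ :=
  ∫ p in ball x ρ ×ˢ ball x ρ, J n (p.1 - p.2) * ‖u p.1 - u p.2‖ ^ 2 ∂(μ.prod μ)

/-- Test functions: Lipschitz, vanishing off the ball, mean zero. -/
structure Test (μ : Measure X) (ψ : X → F) (x : X) (ρ : ℝ) : Prop where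
  lip : ∃ L, LipschitzWith L ψ
  zero : ∀ y, ρ ≤ dist y x → ψ y = 0
  mean : ∫ y, ψ y ∂μ = 0

/-- `u` solves the equation modulo constants in the ball, up to an error of dual norm `√D`. -/
def Osc (n : ℕ) (μ : Measure X) (u : X → F) (x : X) (ρ D : ℝ) : Prop :=
  ∀ ψ : X → F, Test μ ψ x ρ → ∀ η : ℝ, 0 < η → ∃ R0 : ℝ, ∀ R : ℝ, R0 ≤ R →
    |En n μ (cut R) u ψ| ≤ √(D * EE n μ ψ) + η

/-- Reflectionless measure. -/
def Ref (n : ℕ) (μ : Measure X) : Prop := ∀ A : ℝ, Osc n μ (fun y : X => y) 0 A 0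

/-- Upper regularity, all centres and radii. -/
def Up (n : ℕ) (μ : Measure X) (C : ℝ) : Prop :=
  ∀ (y : X) (ρ : ℝ), 0 < ρ → μ (ball y ρ) ≤ ENNReal.ofReal (C * ρ ^ n)

/-- Lower regularity in a window of size `W` around `x`. -/
def Low (n : ℕ) (μ : Measure X) (C : ℝ) (x : X) (W : ℝ) : Prop :=
  ∀ y ∈ μ.support, dist y x < W → ∀ ρ : ℝ, 0 < ρ → ρ ≤ W →
    ENNReal.ofReal (ρ ^ n / C) ≤ μ (ball y ρ)

structure Reg (n : ℕ) (μ : Measure X) (C : ℝ) (x : X) (W : ℝ) : Prop where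
  up : Up n μ C
  low : Low n μ C x W
  mem : x ∈ μ.support

/-- Smoothed Riesz kernel. -/
def Ke (n : ℕ) (ε : ℝ) (z : X) : X := (√(ε ^ 2 + ‖z‖ ^ 2) ^ (n + 1))⁻¹ • z

/-- Minus the divergence of `Ke` in dimension `n`. -/
def je (n : ℕ) (ε : ℝ) (z : X) : ℝ := (‖z‖ ^ 2 - n * ε ^ 2) / √(ε ^ 2 + ‖z‖ ^ 2) ^ (n + 3)

/-- Bilinear form of the L2 bound for the smoothed Riesz transforms. -/
def RB (n : ℕ) (μ : Measure X) (C : ℝ) : Prop :=
  ∀ ε : ℝ, 0 < ε → ∀ (f : X → X) (g : X → ℝ), Continuous f → HasCompactSupport f →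
    Continuous g → HasCompactSupport g →
    |∫ p : X × X, g p.2 * ⟪f p.1, Ke n ε (p.1 - p.2)⟫ ∂(μ.prod μ)| ≤
      C * √(∫ y, ‖f y‖ ^ 2 ∂μ) * √(∫ y, g y ^ 2 ∂μ)

/-- Lipschitz on every ball around the origin. -/
def LocLip (u : X → F) : Prop := ∀ R : ℝ, ∃ L, LipschitzOnWith L u (ball 0 R)

/-- Mean square growth of exponent `5/4` from radius `ρ` on. -/
def Gr (n : ℕ) (μ : Measure X) (u : X → F) (x : X) (ρ G : ℝ) : Prop :=
  ∀ t : ℝ, ρ ≤ t → ∫ y in ball x t, ‖u y‖ ^ 2 ∂μ ≤ G * t ^ n * (t / ρ) ^ (5 / 2 : ℝ)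

/-- Normal component with respect to `V`. -/
abbrev Nm (V : Submodule ℝ X) : X →L[ℝ] X := Vᗮ.starProjection

/-- Tangential component with respect to `V`, as an element of `V`. -/
abbrev Pr (V : Submodule ℝ X) : X →L[ℝ] V := V.orthogonalProjectionOnto

/-- Mean square flatness along `p + V` from radius `r` on. -/
def Flat (n : ℕ) (μ : Measure X) (x : X) (r : ℝ) (V : Submodule ℝ X) (p : X) (β : ℝ) : Prop :=
  Gr n μ (fun y => Nm V (y - p)) x r (β * r ^ 2)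

/-- Vague convergence along a filter. -/
def VL (l : Filter ℕ) (μs : ℕ → Measure X) (ν : Measure X) : Prop :=
  ∀ f : X → ℝ, Continuous f → HasCompactSupport f →
    Tendsto (fun k => ∫ y, f y ∂(μs k)) l (𝓝 (∫ y, f y ∂ν))

/-- A sequence of regular measures with windows growing to infinity. -/
structure Seq (n : ℕ) (C : ℝ) (l : Filter ℕ) (μs : ℕ → Measure X) : Prop where
  up : ∀ k, Up n (μs k) C
  mem : ∀ k, (0 : X) ∈ (μs k).support
  low : ∀ W : ℝ, ∀ᶠ k in l, Low n (μs k) C 0 W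

/-- A sequence of measures with approximate solutions of controlled growth. -/
structure BSeq (n : ℕ) (C : ℝ) (l : Filter ℕ) (μs : ℕ → Measure X) (hs : ℕ → X → F) : Prop where
  seq : Seq n C l μs
  lip : ∀ k, LocLip (hs k)
  gr : ∀ k, Gr n (μs k) (hs k) 0 1 1
  osc : ∀ A δ : ℝ, 0 < δ → ∀ᶠ k in l, Osc n (μs k) (hs k) 0 A δ

/-- Unnormalised mollification against a measure. -/
def moll (η : ℝ) (μ : Measure X) (h : X → F) (y : X) : F :=
  ∫ z, cut η (dist y z) • h z ∂μ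

/-- Similarity. -/
def sim (U : X ≃ₗᵢ[ℝ] X) (x0 : X) (r : ℝ) (y : X) : X := r⁻¹ • U (y - x0)

/-- Rescaled push-forward under a similarity. -/
def blow (n : ℕ) (μ : Measure X) (U : X ≃ₗᵢ[ℝ] X) (x0 : X) (r : ℝ) : Measure X :=
  ENNReal.ofReal ((r ^ n)⁻¹) • μ.map (sim U x0 r)

/-- Lebesgue measure of a subspace, times a constant. -/
def leb (V : Submodule ℝ X) (c : ℝ) : Measure X :=
  ENNReal.ofReal c • (volume : Measure V).map (fun q : V => (q : X))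

/-- Half-harmonic modulo constants for Lebesgue measure, with mean square growth `a`. -/
structure Har (n : ℕ) (U : X → F) (a : ℝ) : Prop where
  lip : LocLip U
  gr : ∃ G : ℝ, ∀ t : ℝ, 1 ≤ t → ∫ y in ball (0 : X) t, ‖U y‖ ^ 2 ≤ G * t ^ ((n : ℝ) + 2 * a)
  har : ∀ A : ℝ, Osc n (volume : Measure X) U 0 A 0

/-- `W` lies in the cone of slope `τ` over `V`. -/
def Cone (V : Submodule ℝ X) (τ : ℝ) (W : Submodule ℝ X) : Prop :=
  ∀ w ∈ W, ‖Nm V w‖ ≤ τ * ‖Pr V w‖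

/-- Dyadic cubes, given by addresses: `ad k y` is the centre of the cube of level `k` of `y`. -/
structure Cubes (E : Set X) (θ : ℝ) where
  Z : Set X
  N : ℕ → Finset X
  ad : ℕ → X → X
  Z_sub : Z ⊆ E
  ad_mem : ∀ k, ∀ y ∈ Z, ad k y ∈ N k
  N_sub : ∀ k, ∀ c ∈ N k, c ∈ Z
  meas : ∀ k c, MeasurableSet {y | y ∈ Z ∧ ad k y = c}
  dist_le : ∀ k, ∀ y ∈ Z, dist y (ad k y) ≤ 2 * θ ^ k
  inner : ∀ k, ∀ c ∈ N k, ∀ y ∈ E, dist y c < θ ^ k / 4 → y ∈ Z ∧ ad k y = c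
  nest : ∀ j k, j ≤ k → ∀ y ∈ Z, ad j (ad k y) = ad j y
  zero : N 0 = {0}

/-- The cube of level `k` with centre `c`. -/
def Cubes.fib {E : Set X} {θ : ℝ} (Q : Cubes E θ) (k : ℕ) (c : X) : Set X :=
  {y | y ∈ Q.Z ∧ Q.ad k y = c}

/-- A choice of approximating plane for each cube. -/
structure FlatData (n : ℕ) (μ : Measure X) {θ : ℝ} (Q : Cubes μ.support θ)
    (V : ℕ → X → Submodule ℝ X) (p : ℕ → X → X) (β : ℕ → X → ℝ) : Prop where
  rank : ∀ k, ∀ c ∈ Q.N k, Module.finrank ℝ (V k c) = n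
  flat : ∀ k, ∀ c ∈ Q.N k, Flat n μ c (θ ^ k) (V k c) (p k c) (β k c)
  nonneg : ∀ k c, 0 ≤ β k c

open Classical in
/-- Level of the top cube of the tree that contains the cube of level `k` of `y`. -/
def tp {E : Set X} {θ : ℝ} (Q : Cubes E θ) (V : ℕ → X → Submodule ℝ X) (β : ℕ → X → ℝ) (ε : ℝ)
    (y : X) : ℕ → ℕ
  | 0 => 0
  | k + 1 =>
    if β (k + 1) (Q.ad (k + 1) y) ≤ ε ∧ β k (Q.ad k y) ≤ ε ∧
        Cone (V (tp Q V β ε y k) (Q.ad (tp Q V β ε y k) y)) (1 / 4) (V k (Q.ad k y))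
    then tp Q V β ε y k else k + 1

/-- The cube of level `k` of `y` is flat but its plane has turned away from that of its top. -/
def Turned {E : Set X} {θ : ℝ} (Q : Cubes E θ) (V : ℕ → X → Submodule ℝ X) (β : ℕ → X → ℝ)
    (ε : ℝ) (k : ℕ) (y : X) : Prop :=
  β k (Q.ad k y) ≤ ε ∧
    ¬ Cone (V (tp Q V β ε y k) (Q.ad (tp Q V β ε y k) y)) (1 / 4) (V k (Q.ad k y))

end Vale.Agent.P120
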